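import Vale.Agent.P155.NT211.New
import Vale.Agent.P155.NT902.Zone
import Vale.Agent.P155.NT613.Main

/-!
# P155, NT: the two-time comparison for the side functions `phS`
-/

namespace Vale.Agent.P155.NT211

open Finset Vale.Agent.P155 SW HT T905 T802 T862 J S743 G45 H904 H12 S862 E4 NT NT802 NT743 NT905
  NT426

/-- the faces which are not free and surrounded by the loop -/
def InS (T : Temp) (xS : ℤ) (q : Pt) (r k : ℕ) (ω : Conf) : Set Pt :=
  {f : Pt | (tE T.V xS q r k).toStop.New ω ∧ f ∉ OE T ((tE T.V xS q r k).toStop.E ω) ∧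
    surr ω ((tE T.V xS q r k).toStop.L ω) f}

/-- a side of the old boundary -/
def SideP (T : Temp) (xS : ℤ) (q : Pt) (r k : ℕ) (b : Bool) (ω : Conf) (f : Pt) : Prop :=
  if b = true then f ∈ InS T xS q r k ω else f ∉ InS T xS q r k ω

theorem at_phS {T : Temp} {xS : ℤ} {q : Pt} {r k : ℕ} (b : Bool) (r1 a s e : ℕ) :
    At (tE T.V xS q r k) (fun ω => phS (OE T ((tE T.V xS q r k).toStop.E ω))
      (SideP T xS q r k b ω) q r1 a s e) :=
  (at_En (tE T.V xS q r k)).comp₂ (fun E S => phS (OE T E)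
    (fun f => if b = true then f ∈ S else f ∉ S) q r1 a s e) (at_surr (tE T.V xS q r k))

section

variable {T : Temp} {xS : ℤ} {ω : Conf} {q : Pt} {r k : ℕ}

theorem sideP_true (hN : (tE T.V xS q r k).toStop.New ω) {f : Pt}
    (hf : f ∉ OE T ((tE T.V xS q r k).toStop.E ω)) :
    SideP T xS q r k true ω f ↔ surr ω ((tE T.V xS q r k).toStop.L ω) f := by
  unfold SideP InS
  simp [hN, hf]

theorem sideP_false (hN : (tE T.V xS q r k).toStop.New ω) {f : Pt}
    (hf : f ∉ OE T ((tE T.V xS q r k).toStop.E ω)) :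
    SideP T xS q r k false ω f ↔ ¬ surr ω ((tE T.V xS q r k).toStop.L ω) f := by
  unfold SideP InS
  simp [hN, hf]

theorem sepA_congr {O : Set Pt} {P P' : Pt → Prop} {r1 d : ℕ} (h : SepA O P q r1 d)
    (hP : ∀ f, f ∉ O → (P' f ↔ P f)) : SepA O P' q r1 d := by
  intro z f f' c a a' h1 h2 h3 h4
  rw [hP a h1, hP a' h2]
  exact h z f f' c a a' h1 h2 h3 h4

theorem sepA_side (hN : (tE T.V xS q r k).toStop.New ω) {r1 d : ℕ}
    (hS : Sep T ω ((tE T.V xS q r k).toStop.L ω) ((tE T.V xS q r k).toStop.E ω) q r1 d)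
    (b : Bool) : SepA (OE T ((tE T.V xS q r k).toStop.E ω)) (SideP T xS q r k b ω) q r1 d := by
  cases b
  · exact sepA_congr (sepA_outer hS) fun f hf => sideP_false hN hf
  · exact sepA_congr (sepA_inner hS) fun f hf => sideP_true hN hf

theorem sepN_iff {r1 d : ℕ} : SepN T xS ω q r k r1 d ↔
    Sep T ω ((tE T.V xS q r k).toStop.L ω) ((tE T.V xS q r k).toStop.E ω) q r1 d := by
  have e1 : (tE T.V xS q r k).toStop.L ω = LK xS ω (Tm.tm T.V xS ω) (Tm.M T.V xS ω) q r k := by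
    unfold Stop.L LK
    rw [Tm.GTime.toStop_t, tE_N]
  have e2 : (tE T.V xS q r k).toStop.E ω = EK xS ω (Tm.tm T.V xS ω) (Tm.M T.V xS ω) q r k := by
    rw [Tm.GTime.toStop_E, tE_N]
    rfl
  rw [e1, e2]
  rfl

/-- the tip at the beginning of the excursion -/
theorem tip_facts (hk : (tE T.V xS q r k).N ω < Tm.M T.V xS ω) :
    dn q (Tm.p T.V xS ω ((tE T.V xS q r k).N ω)) ≤ 2 * r ∧
      Tm.p T.V xS ω ((tE T.V xS q r k).N ω) ∉ OE T ((tE T.V xS q r k).toStop.E ω) := by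
  constructor
  · have h1 := NT802.fst_mem (Tm.M T.V xS ω) (fun n => Tm.p T.V xS ω n ∈ box q (2 * r))
      ((Tm.exiT T.V xS q (2 * r) (4 * r) k).N ω)
    have h2 : (tE T.V xS q r k).N ω = NT802.fst (Tm.M T.V xS ω)
      (fun n => Tm.p T.V xS ω n ∈ box q (2 * r)) ((Tm.exiT T.V xS q (2 * r) (4 * r) k).N ω) := rfl
    rw [← h2] at h1
    exact mem_box_dn905.1 (h1.2.resolve_right (by omega))
  · exact NT802.not_free (Tm.p_mem_En le_rfl)

/-- the scale `4 r` is at most `R` -/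
theorem four_le {R : ℕ} (hω : ω ∈ DD T.V) (hfit : Skel.Fits T R) (hr : 1 ≤ r)
    (hx : (16 * r : ℤ) ≤ |q.1 - xS|) (hk : (tE T.V xS q r k).N ω < Tm.M T.V xS ω) :
    4 * r ≤ R := by
  have h1 := (tip_facts (T := T) hk).1
  have h2 := J.mem_V_box hfit (Tm.p_mem hω hk)
  have h3 := (walk hω xS).valid _ hk
  have h4 := J.mem_V_box hfit h3.1
  rw [mem_box_coord] at h2 h4
  rw [T802.dn_le_iff] at h1
  simp only at h2 h4
  push_cast at h1 h2 h4
  rw [le_abs] at hx
  omega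

end

/-- the bump constant -/
noncomputable def cB (κ : ℝ) : ℝ := 67108864 / κ ^ 2 * (512 / κ) ^ 4

/-- **the far parts** at the two times of an excursion -/
theorem far_exc : ∃ C : ℝ, 0 < C ∧ ∀ (T : Temp) (xS : ℤ) (ω : Conf) (q : Pt)
    (r r1 ro h k d a s e D t : ℕ) (b : Bool) (δ : ℝ), ω ∈ DD T.V → 1 ≤ r →
    (16 * r : ℤ) ≤ |q.1 - xS| → (tE T.V xS q r k).N ω < Tm.M T.V xS ω →
    Sep T ω ((tE T.V xS q r k).toStop.L ω) ((tE T.V xS q r k).toStop.E ω) q r1 d →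
    r1 + 3 ≤ 2 * r → 0 < δ → δ * r ≤ D → D ≤ s → 2 * D + 11 ≤ d → 64 ≤ e → e ≤ D →
    a + s + (2 * D + 20) ≤ r1 → a + s + 3 ≤ ro → 2 * e + 2 ≤ h → 8 ≤ t → t ≤ 2 * r →
    farS (tE T.V xS q r k).toStop (fun ω => phS (OE T ((tE T.V xS q r k).toStop.E ω))
      (SideP T xS q r k b ω) q r1 a s e) t (2 * (4 * r)) q ω ≤ C * (2 / δ) ^ 2 ∧
    farS (tU T xS q r ro h k).toStop (fun ω => phS (OE T ((tE T.V xS q r k).toStop.E ω))
      (SideP T xS q r k b ω) q r1 a s e) t (2 * (4 * r)) q ω ≤ C * (2 / δ) ^ 2 := by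
  obtain ⟨C, hC, hfar⟩ := far_phS
  refine ⟨C * (32 ^ 4 + 1) * 25, by positivity, ?_⟩
  intro T xS ω q r r1 ro h k d a s e D t b δ hω hr hx hk hS hr1 hδ hδD hDs hd he heD ha hro hh ht
    ht2
  have hN := tE_new hω hr hx hk
  obtain ⟨hq, hp⟩ := tip_facts (T := T) (q := q) (r := r) (k := k) hk
  have hr0 : (0 : ℝ) < r := by exact_mod_cast hr
  have hD0 : (0 : ℝ) < D := by
    have : 0 < D := by omega
    exact_mod_cast this
  have hsep := sepA_side hN hS b
  have key : ∀ (O2 : Set Pt) (hO2 : O2.Finite), O2 ⊆ OE T ((tE T.V xS q r k).toStop.E ω) →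
      CPr O2 → (∀ y ∈ OE T ((tE T.V xS q r k).toStop.E ω), y ∉ O2 → dn q y ≤ a + s + 1 →
        2 * e + 1 ≤ dF (OE T ((tE T.V xS q r k).toStop.E ω)) y) →
      ∀ S : Finset Pt, (∀ x ∈ S, x ∉ box q (2 * (4 * r))) →
      ∑ x ∈ S, |fL O2 (phS (OE T ((tE T.V xS q r k).toStop.E ω)) (SideP T xS q r k b ω) q r1 a s e)
        (cutf O2 t) (pot O2 (phS (OE T ((tE T.V xS q r k).toStop.E ω))
          (SideP T xS q r k b ω) q r1 a s e)) x| ≤ C * (32 ^ 4 + 1) * 25 * (2 / δ) ^ 2 := by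
    intro O2 hO2 hsub hCP hnew S hSb
    have h1 := hfar (OE T ((tE T.V xS q r k).toStop.E ω)) O2 (SideP T xS q r k b ω)
      (oe_finite T _) hO2 hsub (Stop.cpr hω) hCP q (Tm.p T.V xS ω ((tE T.V xS q r k).N ω)) r1 d a s
      e D t (2 * r) 1 (32 ^ 4) (cutf O2 t) (pot O2 (phS (OE T ((tE T.V xS q r k).toStop.E ω))
          (SideP T xS q r k b ω) q r1 a s e)) hsep (by omega) (by omega) (by omega) (by omega)
      (by omega) (by omega) (by omega) (by omega) (by omega) (by omega) hp (by omega) hnew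
      (cutf_isCut (G45.exists_notMem hO2) ht le_rfl) (pot_spec hO2 _) S (by
        intro x hx
        have := hSb x hx
        rw [mem_box_dn905] at this
        omega)
    refine h1.trans ?_
    have e1 : (((1 : ℕ) : ℝ) + 4) ^ 2 = 25 := by norm_num
    rw [e1]
    have e2 : (((2 * r : ℕ) : ℝ) / D) ^ 2 ≤ (2 / δ) ^ 2 := by
      apply pow_le_pow_left₀ (by positivity)
      rw [div_le_div_iff₀ hD0 hδ]
      push_cast
      nlinarith
    exact mul_le_mul_of_nonneg_left e2 (by positivity)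
  constructor
  · exact key _ (oe_finite T _) subset_rfl (Stop.cpr hω) (fun y hy hy2 => absurd hy hy2) _
      (fun x hx => (Finset.mem_filter.1 hx).2)
  · refine key _ (oe_finite T ((tU T xS q r ro h k).toStop.E ω))
      (NT802.OE_anti (Tm.En_mono (tE_le_tU T xS q r ro h k ω))) (Stop.cpr hω)
      (hnew_tU hω hr hx hk (by omega) hh) _ (fun x hx => (Finset.mem_filter.1 hx).2)

end Vale.Agent.P155.NT211
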