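import Vale.Agent.P155.NT211.Err

/-!
# P155, NT: the two-time comparison for the side functions `phS`, final form
-/

namespace Vale.Agent.P155.NT211

open Finset Vale.Agent.P155 SW HT T905 T802 T862 J S743 G45 H904 H12 S862 E4 NT NT802 NT743 NT905
  NT426

theorem rpow_small (C : ℝ) {c : ℝ} (hc : 0 < c) :
    ∃ R0 : ℕ, ∀ R : ℕ, R0 ≤ R → C * (R : ℝ) ^ (-c) ≤ 1 := by
  have h := (tendsto_rpow_neg_atTop hc).comp (tendsto_natCast_atTop_atTop (R := ℝ))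
  have h2 := h.const_mul C
  rw [mul_zero] at h2
  obtain ⟨R0, h3⟩ := Filter.eventually_atTop.1 (h2.eventually (Iio_mem_nhds zero_lt_one))
  exact ⟨R0, fun R hR => (h3 R hR).le⟩

theorem sqrt_le_lin {c : ℝ} (hc : 0 < c) :
    ∃ R0 : ℕ, ∀ R : ℕ, R0 ≤ R → (R : ℝ) ^ (1 / 2 : ℝ) ≤ c * R := by
  refine ⟨⌈(1 / c) ^ 2⌉₊ + 1, fun R hR => ?_⟩
  have h1 : (1 / c) ^ 2 ≤ R := (Nat.le_ceil _).trans (by exact_mod_cast (Nat.le_succ _).trans hR)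
  have hR0 : (0 : ℝ) < R := by
    have : 0 < R := by omega
    exact_mod_cast this
  rw [← Real.sqrt_eq_rpow]
  have h2 : 1 / c ≤ Real.sqrt R := by
    rw [← Real.sqrt_sq (by positivity : 0 ≤ 1 / c)]
    exact Real.sqrt_le_sqrt h1
  rw [div_le_iff₀ hc] at h2
  have h3 := Real.mul_self_sqrt hR0.le
  have h4 := Real.sqrt_nonneg (R : ℝ)
  nlinarith

open Classical in
/-- the event: the excursion exists and SEP holds at its beginning -/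
def DomN (T : Temp) (xS : ℤ) (q : Pt) (r k r1 d : ℕ) (ω : Conf) : Prop :=
  (tE T.V xS q r k).N ω < Tm.M T.V xS ω ∧ ((tE T.V xS q r k).toStop.New ω ∧
    Sep T ω ((tE T.V xS q r k).toStop.L ω) ((tE T.V xS q r k).toStop.E ω) q r1 d)

theorem domN_at {T : Temp} {xS : ℤ} {q : Pt} {r k r1 d : ℕ} :
    At (tE T.V xS q r k) (DomN T xS q r k r1 d) :=
  (at_lt (tE T.V xS q r k)).comp₂ (fun a b => a ∧ b) (at_sep (tE T.V xS q r k) q r1 d)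

theorem domN_iff {T : Temp} {xS : ℤ} {ω : Conf} {q : Pt} {r k r1 d : ℕ} (hω : ω ∈ DD T.V)
    (hr : 1 ≤ r) (hx : (16 * r : ℤ) ≤ |q.1 - xS|) : DomN T xS q r k r1 d ω ↔
    (tE T.V xS q r k).N ω < Tm.M T.V xS ω ∧ SepN T xS ω q r k r1 d := by
  unfold DomN
  rw [sepN_iff]
  constructor
  · rintro ⟨h1, -, h2⟩
    exact ⟨h1, h2⟩
  · rintro ⟨h1, h2⟩
    exact ⟨h1, tE_new hω hr hx h1, h2⟩

theorem bump_exc {T : Temp} {xS : ℤ} {ω : Conf} {q : Pt} {r k r1 d a s e D : ℕ} {κ : ℝ}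
    (b : Bool) (_hr : 1 ≤ r) (hd : DomN T xS q r k r1 d ω) (hr1 : r1 + 3 ≤ 2 * r) (hDs : D ≤ s)
    (hDd : 2 * D + 11 ≤ d) (he : 64 ≤ e) (heD : e ≤ D) (ha : a + s + (2 * D + 20) ≤ r1)
    (hκ0 : 0 < κ) (hκ1 : κ ≤ 1) (hκ : κ * ((4 * r : ℕ) : ℝ) ≤ e) :
    Tm.p T.V xS ω ((tE T.V xS q r k).N ω) ∉ OE T ((tE T.V xS q r k).toStop.E ω) ∧
        IsBump (Tm.p T.V xS ω ((tE T.V xS q r k).N ω)) (4 * r) (cB κ / ((4 * r : ℕ) : ℝ) ^ 2)
          (phS (OE T ((tE T.V xS q r k).toStop.E ω)) (SideP T xS q r k b ω) q r1 a s e) := by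
  obtain ⟨hk, hN, hS⟩ := hd
  obtain ⟨hq, hp⟩ := tip_facts (T := T) (q := q) (r := r) (k := k) hk
  refine ⟨hp, ?_⟩
  exact phS_isBump ⟨_, hp⟩ (sepA_side hN hS b) (by omega) (by omega) he (by omega) (by omega)
    (by rw [G45.dn_comm]; omega) hκ0 hκ1 hκ

theorem line_exc {xS : ℤ} {q : Pt} {r ρ : ℕ} (hx : (16 * r : ℤ) ≤ |q.1 - xS|)
    (hρ : 8 * ρ + 16 ≤ 4 * r) : ∀ x ∈ box q (2 * (4 * r)), (ρ : ℤ) + 1 < |x.1 - xS| := by
  intro x hx'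
  rw [mem_box_coord] at hx'
  push_cast at hx'
  rw [le_abs] at hx
  rw [lt_abs]
  omega

theorem sv_le {sv ρ r : ℕ} (h1 : sv ^ 2 + 1 ≤ ρ) (h2 : 8 * ρ + 16 ≤ 4 * r) : sv ≤ 2 * r := by
  have h3 : sv ≤ sv ^ 2 + 1 := by nlinarith
  omega

theorem kappa_le {κ κ' : ℝ} {r R e : ℕ} (hκ4 : κ' ≤ κ / 4) (hκ : 0 < κ) (hrR : r ≤ R)
    (he : κ * R ≤ e) : κ' * ((4 * r : ℕ) : ℝ) ≤ e := by
  have h1 : κ' * ((4 * r : ℕ) : ℝ) ≤ κ / 4 * ((4 * r : ℕ) : ℝ) :=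
    mul_le_mul_of_nonneg_right hκ4 (by positivity)
  have h2 : κ / 4 * ((4 * r : ℕ) : ℝ) = κ * r := by push_cast; ring
  have h3 : κ * r ≤ κ * R := mul_le_mul_of_nonneg_left (by exact_mod_cast hrR) hκ.le
  linarith

open Classical in
/-- collection of the far and zone terms -/
theorem sum_terms {V : Finset Pt} {Dom : Conf → Prop} {f1 z1 f2 z2 : Conf → ℝ} {F Z : ℝ}
    (hF : 0 ≤ F) (h1 : ∀ ω ∈ DD V, Dom ω → f1 ω ≤ F ∧ f2 ω ≤ F)
    (hz1 : Ex V (fun ω => if Dom ω then z1 ω else 0) ≤ Z)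
    (hz2 : Ex V (fun ω => if Dom ω then z2 ω else 0) ≤ Z) :
    Ex V (fun ω => if Dom ω then f1 ω + z1 ω + (f2 ω + z2 ω) else 0) ≤ 2 * F + (Z + Z) := by
  have h2 : Ex V (fun ω => if Dom ω then f1 ω + z1 ω + (f2 ω + z2 ω) else 0) ≤
      Ex V (fun ω => 2 * F + ((if Dom ω then z1 ω else 0) + (if Dom ω then z2 ω else 0))) := by
    apply H12.Ex_mono
    intro ω hω
    by_cases hd : Dom ω
    · rw [if_pos hd, if_pos hd, if_pos hd]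
      obtain ⟨h3, h4⟩ := h1 ω hω hd
      linarith
    · rw [if_neg hd, if_neg hd, if_neg hd]
      linarith
  refine h2.trans ((NT743.Ex_const_add (by linarith) _).trans ?_)
  rw [H12.Ex_add]
  linarith

open Classical in
/-- the two-time integrand -/
noncomputable def dInt (T : Temp) (xS : ℤ) (q : Pt) (r r1 ro h k d a s e : ℕ) (b : Bool)
    (ω : Conf) : ℝ :=
  if DomN T xS q r k r1 d ω then
    ∑ x ∈ (oe_finite T ((tE T.V xS q r k).toStop.E ω)).toFinset,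
      phS (OE T ((tE T.V xS q r k).toStop.E ω)) (SideP T xS q r k b ω) q r1 a s e x *
        ((tU T xS q r ro h k).toStop.Hf ω x - (tE T.V xS q r k).toStop.Hf ω x)
      else 0

open Classical in
/-- the main estimate -/
theorem err_main (c δ : ℝ) (hc : 0 < c) (hδ : 0 < δ) : ∃ C : ℝ, 0 ≤ C ∧ ∀ κ κ' : ℝ, 0 < κ →
    0 < κ' → κ' ≤ 1 → κ' ≤ κ / 4 → ∃ C1 C2 c1 c2 : ℝ, 0 < c1 ∧ 0 < c2 ∧
    ∃ R0 : ℕ, ∀ R : ℕ, R0 ≤ R → ∀ T : Temp, Skel.Fits T R →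
    ∀ (xS : ℤ) (q : Pt) (r r1 ro h k d a s e D : ℕ) (b : Bool), 1 ≤ r → 64 ≤ e →
    (R : ℝ) ^ (1 / 2 : ℝ) ≤ ((4 * r : ℕ) : ℝ) → 4 * r ≤ R → c * R ≤ r → r ≤ R →
    (16 * r : ℤ) ≤ |q.1 - xS| → r1 + 3 ≤ 2 * r → δ * r ≤ D → D ≤ s → 2 * D + 11 ≤ d →
    κ * R ≤ e → e ≤ D → a + s + (2 * D + 20) ≤ r1 → a + s + 3 ≤ ro → 2 * e + 2 ≤ h →
    |Ex T.V (dInt T xS q r r1 ro h k d a s e b)| ≤ 2 * (C1 * (R : ℝ) ^ (-c1)) +
      (2 * C + (C2 * (R : ℝ) ^ (-c2) + C2 * (R : ℝ) ^ (-c2))) := by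
  obtain ⟨γ, hγ, hγ1, hst⟩ := step_am
  obtain ⟨am, ham, hz⟩ := NT902.zone_exc NT613.nearPoly hγ hγ1
  obtain ⟨Cf, hCf, hfar⟩ := far_exc
  refine ⟨Cf * (2 / δ) ^ 2, by positivity, ?_⟩
  intro κ κ' hκ hκ0 hκ1 hκ4
  have hC0 : 0 ≤ cB κ' := by unfold cB; positivity
  obtain ⟨aa, haa, haam, CT, hCT, c1, hc1, C1, hC1, R1, hR1, hst⟩ := hst (1 / 2) (cB κ') am 2
    (by norm_num) hC0 ham (by norm_num)
  obtain ⟨c2, hc2, C2, hC2, R2, hR2, hz⟩ := hz (4 * c) c (cB κ') CT aa 2 (by positivity) hc hC0 hCT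
    haa haam (by norm_num)
  refine ⟨C1, C2, c1, c2, hc1, hc2, max R1 R2, ?_⟩
  intro R hR T hfit xS q r r1 ro h k d a s e D b hr he hsq h4 hcr hrR hx hr1 hδD hDs hd hκe heD ha
    hro hh
  obtain ⟨⟨s1, s2, s3, s4, s5, s6⟩, hst⟩ := hst R (4 * r) T ((le_max_left _ _).trans hR) hfit hsq
    h4 _ _ rfl rfl
  have hz' := hz R (4 * r) T ((le_max_right _ _).trans hR) hfit (by push_cast; linarith) h4 _ _
    rfl rfl s1 s2 s3 s4 xS q r ro h k (DomN T xS q r k r1 d) (fun ω => phS (OE T ((tE T.V xS q r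
      k).toStop.E ω)) (SideP T xS q r k b ω) q r1 a s e) (fun ω => Tm.p T.V xS ω
      ((tE T.V xS q r k).N ω)) hcr hx (fun ω _ hd => hd.1) (fun ω hω hd' => by
        have h1 := (tip_facts (T := T) (q := q) (r := r) (k := k) hd'.1).1
        exact ⟨by omega, (bump_exc b hr hd' hr1 hDs hd he heD ha hκ0 hκ1
          (kappa_le hκ4 hκ hrR hκe)).2⟩)
  have hst' := hst xS q r ro h k (DomN T xS q r k r1 d) (fun ω => phS (OE T ((tE T.V xS q r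
      k).toStop.E ω)) (SideP T xS q r k b ω) q r1 a s e) (fun ω => Tm.p T.V xS ω
      ((tE T.V xS q r k).N ω)) hr hx (line_exc hx s3) (fun ω _ hd => hd.1) domN_at
      (at_phS b r1 a s e) (fun ω _ hd' => bump_exc b hr hd' hr1 hDs hd he heD ha hκ0 hκ1
        (kappa_le hκ4 hκ hrR hκe))
  refine hst'.trans (add_le_add le_rfl ?_)
  refine sum_terms (by positivity) ?_ hz'.1 hz'.2
  intro ω hω hd'
  exact hfar T xS ω q r r1 ro h k d a s e D _ b δ hω hr hx hd'.1 hd'.2.2 hr1 hδ hδD hDs hd he heD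
    ha hro hh s1 (sv_le s2 s3)

/-- **the two-time comparison** for the two sides of the old boundary: the bound depends only on
the macroscopic scale `D` (`δ`), not on the small scale `e` (`κ`) -/
theorem err_phS (c δ : ℝ) (hc : 0 < c) (hδ : 0 < δ) : ∃ C : ℝ, 0 ≤ C ∧ ∀ κ : ℝ, 0 < κ →
    ∃ R0 : ℕ, ∀ R : ℕ, R0 ≤ R → ∀ T : Temp, Skel.Fits T R →
    ∀ (xS : ℤ) (q : Pt) (r r1 ro h k d a s e D : ℕ) (b : Bool), c * R ≤ r → r ≤ R →
    (16 * r : ℤ) ≤ |q.1 - xS| → r1 + 3 ≤ 2 * r → δ * R ≤ D → D ≤ s → 2 * D + 11 ≤ d →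
    κ * R ≤ e → e ≤ D → a + s + (2 * D + 20) ≤ r1 → a + s + 3 ≤ ro → 2 * e + 2 ≤ h →
    |Ex T.V (dInt T xS q r r1 ro h k d a s e b)| ≤ C := by
  obtain ⟨Cf, hCf, hmain⟩ := err_main c δ hc hδ
  refine ⟨2 * Cf + 4, by positivity, ?_⟩
  intro κ hκ
  obtain ⟨C1, C2, c1, c2, hc1, hc2, R1, hmain⟩ := hmain κ (min (κ / 4) 1) hκ
    (lt_min (by positivity) one_pos) (min_le_right _ _) (min_le_left _ _)
  obtain ⟨R3, hR3⟩ := sqrt_le_lin (c := 4 * c) (by positivity)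
  obtain ⟨R4, hR4⟩ := rpow_small C1 hc1
  obtain ⟨R5, hR5⟩ := rpow_small C2 hc2
  refine ⟨max (max R1 (max R3 R4)) (max R5 (max ⌈1 / c⌉₊ ⌈64 / κ⌉₊)), ?_⟩
  intro R hR T hfit xS q r r1 ro h k d a s e D b hcr hrR hx hr1 hδD hDs hd hκe heD ha hro hh
  simp only [max_le_iff] at hR
  obtain ⟨⟨g1, g3, g4⟩, g5, g6, g7⟩ := hR
  have hr : 1 ≤ r := by
    have h1 : 1 / c ≤ R := (Nat.le_ceil _).trans (by exact_mod_cast g6)
    rw [div_le_iff₀ hc] at h1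
    have : (1 : ℝ) ≤ r := by linarith
    exact_mod_cast this
  have he : 64 ≤ e := by
    have h1 : 64 / κ ≤ R := (Nat.le_ceil _).trans (by exact_mod_cast g7)
    rw [div_le_iff₀ hκ] at h1
    have : (64 : ℝ) ≤ e := by linarith
    exact_mod_cast this
  by_cases h4 : 4 * r ≤ R
  · have hsq : (R : ℝ) ^ (1 / 2 : ℝ) ≤ ((4 * r : ℕ) : ℝ) := by
      have := hR3 R g3
      push_cast
      linarith
    have hδr : δ * r ≤ D :=
      (mul_le_mul_of_nonneg_left (by exact_mod_cast hrR) hδ.le).trans hδD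
    have h1 := hmain R g1 T hfit xS q r r1 ro h k d a s e D b hr he hsq h4 hcr hrR hx hr1 hδr hDs
      hd hκe heD ha hro hh
    have h2 := hR4 R g4
    have h3 := hR5 R g5
    linarith
  · -- the event is empty
    have h0 : Ex T.V (dInt T xS q r r1 ro h k d a s e b) = Ex T.V (fun _ => (0 : ℝ)) := by
      apply H12.Ex_congr
      intro ω hω
      unfold dInt
      rw [if_neg]
      rintro ⟨h1, -⟩
      exact h4 (four_le hω hfit hr hx h1)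
    have h1 : Ex T.V (fun _ => (0 : ℝ)) = 0 := by
      unfold Ex
      simp
    rw [h0, h1, abs_zero]
    positivity

end Vale.Agent.P155.NT211
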