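import Vale.Agent.P155.NT905.StepAm
import Vale.Agent.P155.NT426.Flux

/-!
# P155, NT: the new faces at the touching time are far from the old ones
-/

namespace Vale.Agent.P155.NT211

open Finset Vale.Agent.P155 T905 T802 T862 J NT NT802 NT905

section

variable {T : Temp} {xS : ℤ} {ω : Conf} {q : Pt} {r k : ℕ}

/-- the times of an excursion are consecutive times of one loop (the end of the excursion
included) -/
theorem exc_run (hω : ω ∈ DD T.V) (hr : 1 ≤ r) (hx : (16 * r : ℤ) ≤ |q.1 - xS|)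
    (hk : (tE T.V xS q r k).N ω < Tm.M T.V xS ω) : ∀ j,
    (tE T.V xS q r k).N ω + j ≤ (Tm.exiT T.V xS q (2 * r) (4 * r) (k + 1)).N ω →
    Tm.tm T.V xS ω ((tE T.V xS q r k).N ω + j) =
      ((Tm.tm T.V xS ω ((tE T.V xS q r k).N ω)).1,
        (Tm.tm T.V xS ω ((tE T.V xS q r k).N ω)).2 + j) := by
  have hloop : ∀ n, (tE T.V xS q r k).N ω ≤ n →
      n ≤ (Tm.exiT T.V xS q (2 * r) (4 * r) (k + 1)).N ω →
      (Tm.tm T.V xS ω n).1 = (Tm.tm T.V xS ω ((tE T.V xS q r k).N ω)).1 :=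
    (exc_loop hω hr hx hk).2
  intro j
  induction j with
  | zero => intro _; rfl
  | succ j ih =>
    intro hj
    have h1 := ih (by omega)
    have h2 := hloop ((tE T.V xS q r k).N ω + (j + 1)) (by omega) hj
    rcases Tm.tm_step T.V xS ω ((tE T.V xS q r k).N ω + j) with ⟨t, ht, h3, _⟩ | ⟨h3, _⟩
    · exfalso
      rw [← add_assoc, h3] at h2
      rw [h1] at ht
      simp only at h2 ht
      omega
    · rw [← add_assoc, h3, h1]
      exact Prod.ext rfl (by simp only; omega)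

/-- **the new faces at the touching time** in a box are far from the old ones -/
theorem hnew_tU (hω : ω ∈ DD T.V) (hr : 1 ≤ r) (hx : (16 * r : ℤ) ≤ |q.1 - xS|)
    (hk : (tE T.V xS q r k).N ω < Tm.M T.V xS ω) {ro h b e : ℕ} (hb : b + 2 ≤ ro)
    (he : 2 * e + 2 ≤ h) :
    ∀ y ∈ OE T ((tE T.V xS q r k).toStop.E ω), y ∉ OE T ((tU T xS q r ro h k).toStop.E ω) →
      dn q y ≤ b → 2 * e + 1 ≤ dF (OE T ((tE T.V xS q r k).toStop.E ω)) y := by
  intro y hy hy2 hqy
  have hM := (exc_loop hω hr hx hk).1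
  obtain ⟨hsV, hsE, -⟩ := (walk hω xS).valid _ hk
  have hle := tE_le_tU T xS q r ro h k ω
  have hle2 := tU_le_exi T xS q r ro h k ω
  obtain ⟨m, hm⟩ : ∃ m, (tU T xS q r ro h k).N ω = (tE T.V xS q r k).N ω + m :=
    ⟨(tU T xS q r ro h k).N ω - (tE T.V xS q r k).N ω, by omega⟩
  have hrun := exc_run hω hr hx hk
  set n1 := (tE T.V xS q r k).N ω with hn1
  set t := (Tm.tm T.V xS ω n1).1 with ht
  set i0 := (Tm.tm T.V xS ω n1).2 with hi0
  have hE2 : (tU T xS q r ro h k).toStop.E ω = Eti xS ω t (i0 + m) := by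
    rw [Tm.GTime.toStop_E, hm]
    unfold Tm.En
    rw [hrun m (by omega)]
  have hE1 : (tE T.V xS q r k).toStop.E ω = Eti xS ω t i0 := rfl
  -- a new vertex at the face `y`
  have htouch : T802.Touch ((tU T xS q r ro h k).toStop.E ω) y := by
    by_contra hc
    exact hy2 ⟨hy.1, hc⟩
  obtain ⟨w, hwy, hw⟩ := htouch
  rw [hE2] at hw
  have hw1 : w ∉ Eti xS ω t i0 := fun h1 => hy.2 ⟨w, hwy, by rw [hE1]; exact h1⟩
  obtain ⟨j, hj0, hjm, hjw⟩ : ∃ j, 0 < j ∧ j ≤ m ∧ w = go ω (xS, t) (i0 + j) := by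
    rcases hw with h1 | ⟨j, hj, h1⟩
    · exact absurd (Or.inl h1) hw1
    · rcases Nat.lt_or_ge i0 j with h2 | h2
      · exact ⟨j - i0, by omega, by omega, by rw [h1]; congr 1; omega⟩
      · exact absurd (Or.inr ⟨j, h2, h1⟩) hw1
  have hp : ∀ j ≤ m, Tm.p T.V xS ω (n1 + j) = go ω (xS, t) (i0 + j) := by
    intro j hj
    unfold Tm.p
    rw [hrun j (by omega)]
  have hwp : dn w y ≤ 1 := by
    have h1 : w ∈ T802.corners y := hwy
    simp only [T802.corners, mem_insert, mem_singleton] at h1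
    rw [T802.dn_le_iff]
    push_cast
    rcases h1 with rfl | rfl | rfl | rfl <;> simp only <;> omega
  -- the previous time
  have hprev : Tm.p T.V xS ω (n1 + (j - 1)) = go ω (xS, t) (i0 + (j - 1)) := hp _ (by omega)
  have hval := (walk hω xS).valid (n1 + (j - 1)) (by omega)
  rw [hrun (j - 1) (by omega)] at hval
  have hadj := go_adj' hω hsV (i := i0 + (j - 1)) hval.2.2
  rw [show i0 + (j - 1) + 1 = i0 + j by omega, ← hjw, ← hprev] at hadj
  have hdw : dn (Tm.p T.V xS ω (n1 + (j - 1))) w ≤ 1 := by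
    have h1 := adj_coord hadj
    rw [T802.dn_le_iff]
    push_cast
    omega
  have hbox : Tm.p T.V xS ω (n1 + (j - 1)) ∈ box q ro := by
    rw [mem_box_dn905]
    have h1 := G45.dn_tri q y (Tm.p T.V xS ω (n1 + (j - 1)))
    have h2 := G45.dn_tri y w (Tm.p T.V xS ω (n1 + (j - 1)))
    rw [G45.dn_comm y w, G45.dn_comm w (Tm.p T.V xS ω (n1 + (j - 1)))] at h2
    omega
  have hnot := (NT802.not_of_lt (N := (Tm.exiT T.V xS q (2 * r) (4 * r) (k + 1)).N ω)
    (P := fun n => Tm.p T.V xS ω n ∈ box q ro ∧ ∃ a, a ∉ OE T (Tm.En T.V xS ω n1) ∧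
      dn (Tm.p T.V xS ω n) a ≤ h) (i0 := n1) (i := n1 + (j - 1)) (by omega) (by
        have h1 : (tU T xS q r ro h k).N ω = NT802.fst
          ((Tm.exiT T.V xS q (2 * r) (4 * r) (k + 1)).N ω)
          (fun n => Tm.p T.V xS ω n ∈ box q ro ∧ ∃ a, a ∉ OE T (Tm.En T.V xS ω n1) ∧
            dn (Tm.p T.V xS ω n) a ≤ h) n1 := rfl
        rw [← h1, hm]
        omega)).1
  obtain ⟨a, ha, hda⟩ := G45.exists_dF
    (G45.exists_notMem (S743.oe_finite T ((tE T.V xS q r k).toStop.E ω))) y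
  rw [← hda]
  by_contra hc
  refine hnot ⟨hbox, a, ha, ?_⟩
  have h1 := G45.dn_tri (Tm.p T.V xS ω (n1 + (j - 1))) w a
  have h2 := G45.dn_tri w y a
  omega

end

end Vale.Agent.P155.NT211
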